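import Mathlib

namespace Vale.Agent.P102

open MeasureTheory Filter Set

variable {Ω : Type*}

/-- `T` is mixing. -/
def Mixing [MeasurableSpace Ω] (μ : Measure Ω) (T : Equiv.Perm Ω) : Prop :=
  ∀ A B : Set Ω, MeasurableSet A → MeasurableSet B → ∀ ε : ℝ, 0 < ε → ∃ N : ℤ, ∀ n : ℤ,
    N ≤ |n| → |μ.real (A ∩ (T ^ n) ⁻¹' B) - μ.real A * μ.real B| < ε

/-- `T` is mixing of order `k`. -/
def MixingOfOrder [MeasurableSpace Ω] (μ : Measure Ω) (T : Equiv.Perm Ω) (k : ℕ) : Prop :=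
  ∀ A : Fin k → Set Ω, (∀ i, MeasurableSet (A i)) → ∀ ε : ℝ, 0 < ε → ∃ N : ℤ,
    ∀ t : Fin k → ℤ, (∀ i j : Fin k, (j : ℕ) = i + 1 → N ≤ t j - t i) →
      |μ.real (⋂ i, (T ^ t i) ⁻¹' A i) - ∏ i, μ.real (A i)| < ε

/-- The sets obtained from the sets `T^{-n} G` (`G ∈ 𝒢`, `n ∈ F`) by finite intersections and
finite unions: the increasing events of the process at the times in `F`. -/
inductive Inc (T : Equiv.Perm Ω) (𝒢 : Set (Set Ω)) (F : Set ℤ) : Set Ω → Prop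
  | gen {G : Set Ω} {n : ℤ} : G ∈ 𝒢 → n ∈ F → Inc T 𝒢 F ((T ^ n) ⁻¹' G)
  | inter {A B : Set Ω} : Inc T 𝒢 F A → Inc T 𝒢 F B → Inc T 𝒢 F (A ∩ B)
  | union {A B : Set Ω} : Inc T 𝒢 F A → Inc T 𝒢 F B → Inc T 𝒢 F (A ∪ B)

end Vale.Agent.P102
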