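import Vale.Agent.P102.Defs

namespace Vale.Agent.P102

open MeasureTheory Filter Set Topology

variable {Ω : Type*}

theorem pre_add (T : Equiv.Perm Ω) (m n : ℤ) (A : Set Ω) :
    (T ^ m) ⁻¹' ((T ^ n) ⁻¹' A) = (T ^ (n + m)) ⁻¹' A := by
  ext x
  simp [zpow_add]

theorem Inc.mono {T : Equiv.Perm Ω} {𝒢 : Set (Set Ω)} {F F' : Set ℤ} (h : F ⊆ F') {A : Set Ω}
    (hA : Inc T 𝒢 F A) : Inc T 𝒢 F' A := by
  induction hA with
  | gen hG hn => exact .gen hG (h hn)
  | inter _ _ h1 h2 => exact .inter h1 h2
  | union _ _ h1 h2 => exact .union h1 h2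

theorem Inc.shift {T : Equiv.Perm Ω} {𝒢 : Set (Set Ω)} {F F' : Set ℤ} (m : ℤ)
    (h : ∀ n ∈ F, n + m ∈ F') {A : Set Ω} (hA : Inc T 𝒢 F A) : Inc T 𝒢 F' ((T ^ m) ⁻¹' A) := by
  induction hA with
  | gen hG hn => rw [pre_add]; exact .gen hG (h _ hn)
  | inter _ _ h1 h2 => rw [preimage_inter]; exact .inter h1 h2
  | union _ _ h1 h2 => rw [preimage_union]; exact .union h1 h2

theorem Inc.bdd {T : Equiv.Perm Ω} {𝒢 : Set (Set Ω)} {F : Set ℤ} {A : Set Ω}
    (hA : Inc T 𝒢 F A) : ∃ r : ℕ, Inc T 𝒢 (Icc (-(r : ℤ)) r) A := by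
  induction hA with
  | @gen G n hG _ => exact ⟨n.natAbs, .gen hG ⟨by omega, by omega⟩⟩
  | inter _ _ h1 h2 =>
    obtain ⟨r, h1⟩ := h1
    obtain ⟨r', h2⟩ := h2
    exact ⟨r + r', .inter (h1.mono (Icc_subset_Icc (by omega) (by omega)))
      (h2.mono (Icc_subset_Icc (by omega) (by omega)))⟩
  | union _ _ h1 h2 =>
    obtain ⟨r, h1⟩ := h1
    obtain ⟨r', h2⟩ := h2
    exact ⟨r + r', .union (h1.mono (Icc_subset_Icc (by omega) (by omega)))
      (h2.mono (Icc_subset_Icc (by omega) (by omega)))⟩

variable [MeasurableSpace Ω] {μ : Measure Ω} [IsProbabilityMeasure μ] {T : Equiv.Perm Ω}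

omit [IsProbabilityMeasure μ] in
theorem mp_zpow (hT : MeasurePreserving T μ μ) (hT' : Measurable T.symm) (n : ℤ) :
    MeasurePreserving (T ^ n : Equiv.Perm Ω) μ μ := by
  have hs : MeasurePreserving (T⁻¹ : Equiv.Perm Ω) μ μ :=
    MeasurePreserving.symm (MeasurableEquiv.mk T hT.measurable hT') hT
  induction n using Int.induction_on with
  | zero => simpa using MeasurePreserving.id μ
  | succ n ih =>
    rw [zpow_add_one]
    exact ih.comp hT
  | pred n ih =>
    rw [zpow_sub_one]
    exact ih.comp hs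

theorem Inc.meas {𝒢 : Set (Set Ω)} (h𝒢 : ∀ G ∈ 𝒢, MeasurableSet G)
    (hm : ∀ n : ℤ, Measurable (T ^ n : Equiv.Perm Ω)) {F : Set ℤ} {A : Set Ω}
    (hA : Inc T 𝒢 F A) : MeasurableSet A := by
  induction hA with
  | gen hG _ => exact hm _ (h𝒢 _ hG)
  | inter _ _ h1 h2 => exact h1.inter h2
  | union _ _ h1 h2 => exact h1.union h2

/-- covariance of two events -/
noncomputable def cov (μ : Measure Ω) (A B : Set Ω) : ℝ := μ.real (A ∩ B) - μ.real A * μ.real B

theorem cov_inter {A B C : Set Ω} (hA : MeasurableSet A) (hC : MeasurableSet C) :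
    cov μ A (B ∩ C) + cov μ A (B ∪ C) = cov μ A B + cov μ A C := by
  unfold cov
  have h1 := measureReal_union_add_inter (μ := μ) (s := B) hC
  have h2 := measureReal_union_add_inter (μ := μ) (s := A ∩ B) (hA.inter hC)
  rw [← inter_union_distrib_left, ← inter_inter_distrib_left] at h2
  have h3 : μ.real A * μ.real (B ∪ C) + μ.real A * μ.real (B ∩ C) =
      μ.real A * μ.real B + μ.real A * μ.real C := by rw [← mul_add, ← mul_add, h1]
  linarith

omit [IsProbabilityMeasure μ] in
theorem cov_shift (hp : ∀ n : ℤ, MeasurePreserving (T ^ n : Equiv.Perm Ω) μ μ) (n : ℤ)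
    {A B : Set Ω} (hA : MeasurableSet A) (hB : MeasurableSet B) :
    cov μ ((T ^ n) ⁻¹' A) ((T ^ n) ⁻¹' B) = cov μ A B := by
  unfold cov
  rw [← preimage_inter, (hp n).measureReal_preimage (hA.inter hB).nullMeasurableSet,
    (hp n).measureReal_preimage hA.nullMeasurableSet,
    (hp n).measureReal_preimage hB.nullMeasurableSet]

/-- covariance with an intersection is controlled by the single covariances -/
theorem cov_iInter {𝒢 : Set (Set Ω)} {F : Set ℤ} {s : ℝ} {A : Set Ω} (hA : MeasurableSet A)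
    (hm : ∀ B, Inc T 𝒢 F B → MeasurableSet B) (hs : ∀ B, Inc T 𝒢 F B → 0 ≤ s * cov μ A B) :
    ∀ (k : ℕ) (B : Fin (k + 1) → Set Ω), (∀ i, Inc T 𝒢 F (B i)) →
      Inc T 𝒢 F (⋂ i, B i) ∧ s * cov μ A (⋂ i, B i) ≤ ∑ i, s * cov μ A (B i) := by
  intro k
  induction k with
  | zero =>
    intro B hB
    have e : ⋂ i, B i = B 0 := by
      ext x
      simp [Fin.forall_fin_one]
    rw [e]
    exact ⟨hB 0, by simp⟩
  | succ k ih =>
    intro B hB
    obtain ⟨h1, h2⟩ := ih (fun i => B i.succ) fun i => hB _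
    have e : ⋂ i, B i = B 0 ∩ ⋂ i : Fin (k + 1), B i.succ := by
      ext x
      simp [Fin.forall_fin_succ]
    rw [e, Fin.sum_univ_succ]
    refine ⟨.inter (hB 0) h1, ?_⟩
    have h3 := cov_inter (μ := μ) (B := B 0) hA (hm _ h1)
    have h4 := hs _ (.union (hB 0) h1)
    have h5 : s * cov μ A (B 0 ∩ ⋂ i : Fin (k + 1), B i.succ) +
        s * cov μ A (B 0 ∪ ⋂ i : Fin (k + 1), B i.succ) =
        s * cov μ A (B 0) + s * cov μ A (⋂ i : Fin (k + 1), B i.succ) := by
      rw [← mul_add, ← mul_add, h3]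
    linarith

/-- quantitative bound for increasing events with separated supports -/
theorem inc_bound {𝒢 : Set (Set Ω)} (h𝒢 : ∀ G ∈ 𝒢, MeasurableSet G)
    (hp : ∀ n : ℤ, MeasurePreserving (T ^ n : Equiv.Perm Ω) μ μ) {s : ℝ} (hs1 : s = 1 ∨ s = -1)
    (hs : ∀ A B, Inc T 𝒢 (Iic 0) A → Inc T 𝒢 (Ioi 0) B → 0 ≤ s * cov μ A B) (r : ℕ) {δ : ℝ}
    (hδ : 0 ≤ δ) :
    ∀ (k : ℕ) (A : Fin k → Set Ω) (t : Fin k → ℤ),
      (∀ i, A i = univ ∨ Inc T 𝒢 (Icc (-(r : ℤ)) r) (A i)) →
      (∀ i j, i < j → 2 * (r : ℤ) < t j - t i ∧ |cov μ (A i) ((T ^ (t j - t i)) ⁻¹' A j)| ≤ δ) →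
      |μ.real (⋂ i, (T ^ t i) ⁻¹' A i) - ∏ i, μ.real (A i)| ≤ k ^ 2 * δ := by
  have hm : ∀ {F B}, Inc T 𝒢 F B → MeasurableSet B := fun h =>
    h.meas h𝒢 fun n => (hp n).measurable
  intro k
  induction k with
  | zero =>
    intro A t _ _
    simp
  | succ k ih =>
    intro A t hA ht
    have hAm : ∀ i, MeasurableSet (A i) := fun i => by
      rcases hA i with h | h
      · rw [h]; exact MeasurableSet.univ
      · exact hm h
    have h1 := ih (fun i => A i.succ) (fun i => t i.succ) (fun i => hA _)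
      fun i j hij => ht _ _ (Fin.succ_lt_succ_iff.2 hij)
    have e : ⋂ i, (T ^ t i) ⁻¹' A i =
        (T ^ t 0) ⁻¹' A 0 ∩ ⋂ i : Fin k, (T ^ t i.succ) ⁻¹' A i.succ := by
      ext x
      simp [Fin.forall_fin_succ]
    set Y := ⋂ i : Fin k, (T ^ t i.succ) ⁻¹' A i.succ with hY
    have hc : |cov μ ((T ^ t 0) ⁻¹' A 0) Y| ≤ k * δ := by
      rcases hA 0 with h0 | h0
      · rw [h0]
        simp only [cov, preimage_univ, univ_inter, probReal_univ, one_mul, sub_self, abs_zero]
        positivity
      by_cases hall : ∀ i : Fin k, A i.succ = univ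
      · have : Y = univ := by simp [hY, hall]
        rw [this]
        simp only [cov, inter_univ, probReal_univ, mul_one, sub_self, abs_zero]
        positivity
      push Not at hall
      obtain ⟨i0, hi0⟩ := hall
      obtain ⟨k, rfl⟩ : ∃ k', k = k' + 1 := ⟨k - 1, by have := i0.pos; omega⟩
      classical
      let σ : Fin (k + 1) → Fin (k + 1) := fun i => if A i.succ = univ then i0 else i
      have hσ : ∀ i, A (σ i).succ ≠ univ := fun i => by
        by_cases h : A i.succ = univ
        · simp only [σ, if_pos h]; exact hi0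
        · simp only [σ, if_neg h]; exact h
      let c : ℤ := t 0 + r
      let B : Fin (k + 1) → Set Ω := fun i => (T ^ (t (σ i).succ - c)) ⁻¹' A (σ i).succ
      let X : Set Ω := (T ^ (t 0 - c)) ⁻¹' A 0
      have hX : Inc T 𝒢 (Iic 0) X := h0.shift _ fun n hn => by
        have := hn.2
        simp only [mem_Iic, c]
        omega
      have hB : ∀ i, Inc T 𝒢 (Ioi 0) (B i) := fun i =>
        ((hA _).resolve_left (hσ i)).shift _ fun n hn => by
          have h2 := hn.1
          have h3 := (ht 0 (σ i).succ (Fin.succ_pos _)).1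
          simp only [mem_Ioi, c]
          omega
      obtain ⟨g1, g2⟩ := cov_iInter (μ := μ) (s := s) (hm hX) (fun B h => hm h)
        (fun B h => hs X B hX h) k B hB
      have g3 := hs X _ hX g1
      have g4 : ∀ i, s * cov μ X (B i) ≤ δ := fun i => by
        have a1 := (ht 0 (σ i).succ (Fin.succ_pos _)).2
        have a2 := cov_shift hp (t 0 - c) (hAm 0)
          ((hp (t (σ i).succ - t 0)).measurable (hAm (σ i).succ))
        rw [pre_add, show t (σ i).succ - t 0 + (t 0 - c) = t (σ i).succ - c by ring] at a2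
        have a3 : cov μ X (B i) = cov μ (A 0) ((T ^ (t (σ i).succ - t 0)) ⁻¹' A (σ i).succ) := a2
        rw [a3]
        have a4 := abs_le.1 a1
        rcases hs1 with rfl | rfl <;> linarith [a4.1, a4.2]
      have g5 : ∑ i, s * cov μ X (B i) ≤ ((k + 1 : ℕ) : ℝ) * δ := by
        refine (Finset.sum_le_card_nsmul _ _ δ fun i _ => g4 i).trans ?_
        simp
      have g6 := cov_shift hp c (hm hX) (hm g1)
      have e1 : (T ^ c) ⁻¹' X = (T ^ t 0) ⁻¹' A 0 := by
        simp only [X]
        rw [pre_add, sub_add_cancel]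
      have e2 : (T ^ c) ⁻¹' (⋂ i, B i) = Y := by
        rw [preimage_iInter]
        simp only [B, pre_add, sub_add_cancel]
        ext x
        simp only [hY, mem_iInter]
        constructor
        · intro h i
          by_cases hu : A i.succ = univ
          · rw [hu]; trivial
          · have := h i
            simp only [σ, if_neg hu] at this
            exact this
        · intro h i
          exact h _
      rw [e1, e2] at g6
      rw [g6, abs_le]
      rcases hs1 with rfl | rfl <;> constructor <;> linarith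
    rw [e, Fin.prod_univ_succ]
    unfold cov at hc
    rw [(hp (t 0)).measureReal_preimage (hAm 0).nullMeasurableSet] at hc
    have b0 : 0 ≤ μ.real (A 0) := measureReal_nonneg
    have b1 : μ.real (A 0) ≤ 1 := measureReal_le_one
    have b2 : |μ.real (A 0) * (μ.real Y - ∏ i : Fin k, μ.real (A i.succ))| ≤ k ^ 2 * δ := by
      rw [abs_mul, abs_of_nonneg b0]
      exact (mul_le_of_le_one_left (abs_nonneg _) b1).trans h1
    have b3 := abs_le.1 b2
    have b4 := abs_le.1 hc
    have hk : (0 : ℝ) ≤ k := Nat.cast_nonneg k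
    have b5 : (k : ℝ) ^ 2 * δ + k * δ ≤ ((k + 1 : ℕ) : ℝ) ^ 2 * δ := by
      push_cast
      nlinarith [mul_nonneg hk hδ]
    rw [abs_le]
    constructor <;> linarith [b3.1, b3.2, b4.1, b4.2]

/-- extension from a generating pi-system in one coordinate -/
theorem extend {ι : Type*} (l : Filter ι) (R : ι → Set Ω) (hR : ∀ x, MeasurableSet (R x))
    (τ : ι → Ω → Ω) (hτ : ∀ x, MeasurePreserving (τ x) μ μ) (c : ℝ) {S : Set (Set Ω)}
    (hgen : ‹MeasurableSpace Ω› = MeasurableSpace.generateFrom S) (hpi : IsPiSystem S)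
    (hu : Tendsto (fun x => μ.real (R x)) l (𝓝 c))
    (hS : ∀ B ∈ S, Tendsto (fun x => μ.real (R x ∩ τ x ⁻¹' B)) l (𝓝 (c * μ.real B))) :
    ∀ B, MeasurableSet B → Tendsto (fun x => μ.real (R x ∩ τ x ⁻¹' B)) l (𝓝 (c * μ.real B)) := by
  refine MeasurableSpace.induction_on_inter hgen hpi ?_ hS ?_ ?_
  · simpa using tendsto_const_nhds
  · intro B hB ih
    have e : ∀ x, μ.real (R x ∩ τ x ⁻¹' Bᶜ) = μ.real (R x) - μ.real (R x ∩ τ x ⁻¹' B) := fun x => by
      have := measureReal_inter_add_sdiff (μ := μ) (s := R x) ((hτ x).measurable hB)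
      rw [preimage_compl, ← sdiff_eq]
      linarith
    simp only [e]
    rw [measureReal_compl hB, probReal_univ, mul_sub, mul_one]
    exact hu.sub ih
  · intro f hd hf ih
    have hsum : HasSum (fun i => μ.real (f i)) (μ.real (⋃ i, f i)) := by
      have h1 := measure_iUnion (μ := μ) hd hf
      have h2 : ∑' i, μ (f i) ≠ ⊤ := by rw [← h1]; exact measure_ne_top _ _
      have h3 := ENNReal.hasSum_toReal h2
      rw [← ENNReal.tsum_toReal_eq fun i => measure_ne_top μ (f i), ← h1] at h3
      exact h3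
    have e : ∀ x, μ.real (R x ∩ τ x ⁻¹' ⋃ i, f i) = ∑' i, μ.real (R x ∩ τ x ⁻¹' f i) := fun x => by
      rw [preimage_iUnion, inter_iUnion, Measure.real, measure_iUnion
        (fun i j hij => ((hd hij).preimage (τ x)).mono inter_subset_right inter_subset_right)
        fun i => (hR x).inter ((hτ x).measurable (hf i)),
        ENNReal.tsum_toReal_eq fun i => measure_ne_top _ _]
      rfl
    simp only [e]
    rw [← hsum.tsum_eq, ← tsum_mul_left]
    refine tendsto_tsum_of_dominated_convergence hsum.summable ih (Eventually.of_forall fun x i => ?_)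
    rw [Real.norm_eq_abs, abs_of_nonneg measureReal_nonneg,
      ← (hτ x).measureReal_preimage (hf i).nullMeasurableSet]
    exact measureReal_mono inter_subset_right

theorem gaps {k : ℕ} {N : ℤ} (hN : 0 ≤ N) {t : Fin k → ℤ}
    (h : ∀ i j : Fin k, (j : ℕ) = i + 1 → N ≤ t j - t i) : ∀ i j : Fin k, i < j → N ≤ t j - t i := by
  have key : ∀ (d : ℕ) (i j : Fin k), (j : ℕ) = i + d + 1 → N ≤ t j - t i := by
    intro d
    induction d with
    | zero => exact fun i j e => h i j (by omega)
    | succ d ih =>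
      intro i j e
      have hj := j.2
      have h1 := ih i ⟨i + d + 1, by omega⟩ rfl
      have h2 := h ⟨i + d + 1, by omega⟩ j (by simp only; omega)
      omega
  intro i j hij
  have : (i : ℕ) < j := hij
  exact key (j - i - 1) i j (by omega)

theorem main {𝒢 : Set (Set Ω)} (hT : MeasurePreserving T μ μ) (hT' : Measurable T.symm)
    (hgen : MeasurableSpace.generateFrom {B | ∃ G ∈ 𝒢, ∃ n : ℤ, B = (T ^ n) ⁻¹' G} =
      ‹MeasurableSpace Ω›) {s : ℝ} (hs1 : s = 1 ∨ s = -1)
    (hs : ∀ A B, Inc T 𝒢 (Iic 0) A → Inc T 𝒢 (Ioi 0) B → 0 ≤ s * cov μ A B)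
    (hmix : Mixing μ T) (k : ℕ) : MixingOfOrder μ T k := by
  classical
  have hp := mp_zpow hT hT'
  have h𝒢 : ∀ G ∈ 𝒢, MeasurableSet G := fun G hG => by
    rw [← hgen]
    exact MeasurableSpace.measurableSet_generateFrom ⟨G, hG, 0, by simp⟩
  let S : Set (Set Ω) := {A | A = univ ∨ Inc T 𝒢 univ A}
  have hSm : ∀ A ∈ S, MeasurableSet A := by
    rintro A (rfl | h)
    · exact MeasurableSet.univ
    · exact h.meas h𝒢 fun n => (hp n).measurable
  have hpi : IsPiSystem S := by
    rintro A (rfl | hA) B (rfl | hB) -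
    · exact Or.inl (by simp)
    · rw [univ_inter]; exact Or.inr hB
    · rw [inter_univ]; exact Or.inr hA
    · exact Or.inr (.inter hA hB)
  have hgS : ‹MeasurableSpace Ω› = MeasurableSpace.generateFrom S := by
    refine le_antisymm ?_ (MeasurableSpace.generateFrom_le hSm)
    rw [← hgen]
    refine MeasurableSpace.generateFrom_mono ?_
    rintro B ⟨G, hG, n, rfl⟩
    exact Or.inr (.gen hG (mem_univ _))
  let U : ℤ → Set (Fin k → ℤ) := fun N => {t | ∀ i j, i < j → N ≤ t j - t i}
  have hb : (⨅ N, 𝓟 (U N)).HasBasis (fun _ => True) U :=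
    hasBasis_iInf_principal fun a b => ⟨max a b,
      fun t ht i j hij => (le_max_left a b).trans (ht i j hij),
      fun t ht i j hij => (le_max_right a b).trans (ht i j hij)⟩
  set l := ⨅ N, 𝓟 (U N) with hl
  have base : ∀ A : Fin k → Set Ω, (∀ i, A i ∈ S) →
      Tendsto (fun t : Fin k → ℤ => μ.real (⋂ i, (T ^ t i) ⁻¹' A i)) l (𝓝 (∏ i, μ.real (A i))) := by
    intro A hA
    rw [Metric.tendsto_nhds]
    intro ε hε
    have h1 : ∀ i, ∃ r : ℕ, A i = univ ∨ Inc T 𝒢 (Icc (-(r : ℤ)) r) (A i) := fun i => by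
      rcases hA i with h | h
      · exact ⟨0, Or.inl h⟩
      · obtain ⟨r, hr⟩ := h.bdd
        exact ⟨r, Or.inr hr⟩
    choose r hr using h1
    obtain ⟨r0, hr0⟩ := (Set.finite_range r).bddAbove
    have hk : (0 : ℝ) < (k : ℝ) ^ 2 + 1 := by positivity
    have hδ : 0 < ε / ((k : ℝ) ^ 2 + 1) := div_pos hε hk
    choose N hN using fun p : Fin k × Fin k =>
      hmix (A p.1) (A p.2) (hSm _ (hA _)) (hSm _ (hA _)) _ hδ
    obtain ⟨N0, hN0⟩ := (Set.finite_range N).bddAbove
    refine hb.eventually_iff.2 ⟨max N0 (2 * r0 + 1), trivial, fun t ht => ?_⟩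
    have h2 := inc_bound h𝒢 hp hs1 hs r0 hδ.le k A t (fun i => ?_) fun i j hij => ?_
    · rw [Real.dist_eq]
      refine h2.trans_lt ?_
      rw [← mul_div_assoc, div_lt_iff₀ hk]
      nlinarith
    · rcases hr i with h | h
      · exact Or.inl h
      · have : r i ≤ r0 := hr0 ⟨i, rfl⟩
        exact Or.inr (h.mono (Icc_subset_Icc (by omega) (by omega)))
    · have h3 := ht i j hij
      have h4 : N (i, j) ≤ N0 := hN0 ⟨(i, j), rfl⟩
      have h5 := le_max_left N0 (2 * (r0 : ℤ) + 1)
      have h6 := le_max_right N0 (2 * (r0 : ℤ) + 1)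
      refine ⟨by omega, ?_⟩
      unfold cov
      rw [(hp _).measureReal_preimage (hSm _ (hA j)).nullMeasurableSet]
      exact (hN (i, j) (t j - t i) (by have := le_abs_self (t j - t i); omega)).le
  have step : ∀ m : ℕ, ∀ A : Fin k → Set Ω, (∀ i, MeasurableSet (A i)) →
      (∀ i : Fin k, m ≤ (i : ℕ) → A i ∈ S) →
      Tendsto (fun t : Fin k → ℤ => μ.real (⋂ i, (T ^ t i) ⁻¹' A i)) l (𝓝 (∏ i, μ.real (A i))) := by
    intro m
    induction m with
    | zero => exact fun A _ h => base A fun i => h i (Nat.zero_le _)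
    | succ m ih =>
      intro A hA h
      by_cases hm : m < k
      swap
      · exact ih A hA fun i hi => absurd (lt_of_le_of_lt hi i.2) hm
      let i0 : Fin k := ⟨m, hm⟩
      have hupd : ∀ B ∈ S, Tendsto
          (fun t : Fin k → ℤ => μ.real (⋂ i, (T ^ t i) ⁻¹' Function.update A i0 B i)) l
          (𝓝 (∏ i, μ.real (Function.update A i0 B i))) := fun B hB =>
        ih _ (fun i => by
            by_cases e : i = i0
            · rw [e, Function.update_self]; exact hSm B hB
            · rw [Function.update_of_ne e]; exact hA i)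
          fun i hi => by
            by_cases e : i = i0
            · rw [e, Function.update_self]; exact hB
            · rw [Function.update_of_ne e]
              refine h i ?_
              have : (i : ℕ) ≠ m := fun e' => e (Fin.ext e')
              omega
      have e1 : ∀ (B : Set Ω) (t : Fin k → ℤ), ⋂ i, (T ^ t i) ⁻¹' Function.update A i0 B i =
          (⋂ i, (T ^ t i) ⁻¹' Function.update A i0 univ i) ∩ (T ^ t i0) ⁻¹' B := by
        intro B t
        ext x
        simp only [mem_iInter, mem_inter_iff, mem_preimage]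
        constructor
        · intro hx
          refine ⟨fun i => ?_, by simpa using hx i0⟩
          by_cases e : i = i0
          · rw [e, Function.update_self]; trivial
          · have := hx i
            rw [Function.update_of_ne e] at this ⊢
            exact this
        · rintro ⟨hx, hx0⟩ i
          by_cases e : i = i0
          · rw [e, Function.update_self]; exact hx0
          · have := hx i
            rw [Function.update_of_ne e] at this ⊢
            exact this
      have e2 : ∀ B : Set Ω, ∏ i, μ.real (Function.update A i0 B i) =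
          (∏ i, μ.real (Function.update A i0 univ i)) * μ.real B := by
        intro B
        rw [← Finset.mul_prod_erase _ _ (Finset.mem_univ i0),
          ← Finset.mul_prod_erase _ (fun i => μ.real (Function.update A i0 univ i))
            (Finset.mem_univ i0), Function.update_self, Function.update_self, probReal_univ,
          one_mul, mul_comm]
        congr 1
        refine Finset.prod_congr rfl fun i hi => ?_
        rw [Function.update_of_ne (Finset.ne_of_mem_erase hi),
          Function.update_of_ne (Finset.ne_of_mem_erase hi)]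
      have h3 := extend l (fun t : Fin k → ℤ => ⋂ i, (T ^ t i) ⁻¹' Function.update A i0 univ i)
        (fun t => MeasurableSet.iInter fun i => (hp _).measurable (by
          by_cases e : i = i0
          · rw [e, Function.update_self]; exact MeasurableSet.univ
          · rw [Function.update_of_ne e]; exact hA i))
        (fun t => (T ^ t i0 : Equiv.Perm Ω)) (fun t => hp _) _ hgS hpi (hupd univ (Or.inl rfl))
        (fun B hB => by
          have := hupd B hB
          simp only [e1 B, e2 B] at this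
          exact this) (A i0) (hA i0)
      simp only [← e1, ← e2, Function.update_eq_self] at h3
      exact h3
  intro A hA ε hε
  have h1 := step k A hA fun i hi => absurd i.2 (not_lt.2 hi)
  obtain ⟨N, -, hN⟩ := hb.eventually_iff.1 (Metric.tendsto_nhds.1 h1 ε hε)
  refine ⟨max N 0, fun t ht => ?_⟩
  have h2 := hN (x := t) fun i j hij => (le_max_left N 0).trans (gaps (le_max_right N 0) ht i j hij)
  rwa [Real.dist_eq] at h2

end Vale.Agent.P102
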